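import Vale.Agent.P011.H973.Full.TransHA
import Vale.Agent.P011.H272.Q1Three
import Vale.Agent.P011.H519.SplitPlaceK

/-!
# The Margulis-Platonov conjecture for outer forms of type `A` over a number field, in the letters
of the places, from the case of division algebras
-/

open Module NumberField TensorProduct Topology
open Vale.Agent.P011.H738 (Place SUA Anis)

namespace Vale.Agent.P011.H973.Full

section empty

variable {k K A F : Type} [Field k] [Field K] [Algebra k K] [Ring A] [StarRing A]
  [Algebra k A] [Algebra K A] [Field F] [Algebra K F] {n : ℕ}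

omit [StarRing A] in
/-- If `x` is not a unit then `x ⊗ 1` is not a unit. -/
theorem exists_not_isUnit [FiniteDimensional K A] (L : Type) [Field L] [Algebra K L] {x : A}
    (hx : x ≠ 0) (hu : ¬ IsUnit x) : ∃ z : L ⊗[K] A, z ≠ 0 ∧ ¬ IsUnit z := by
  have hinj : Function.Injective (fun y : A => (1 : L) ⊗ₜ[K] y) :=
    (Algebra.TensorProduct.includeRight_injective (algebraMap K L).injective :
      Function.Injective (Algebra.TensorProduct.includeRight : A →ₐ[K] L ⊗[K] A))
  have hne : ∀ y : A, y ≠ 0 → (1 : L) ⊗ₜ[K] y ≠ 0 := by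
    intro y hy h
    apply hy
    apply hinj
    change (1 : L) ⊗ₜ[K] y = 1 ⊗ₜ[K] 0
    rw [h, TensorProduct.tmul_zero]
  -- left multiplication by `x` is not injective
  have hker : ∃ y : A, y ≠ 0 ∧ x * y = 0 := by
    by_contra hcon
    push Not at hcon
    have hi : Function.Injective (LinearMap.mulLeft K x) := by
      rw [← LinearMap.ker_eq_bot, LinearMap.ker_eq_bot']
      intro y hy
      by_contra h0
      exact hcon y h0 hy
    have hs : Function.Surjective (LinearMap.mulLeft K x) :=
      LinearMap.surjective_of_injective hi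
    obtain ⟨y, hy⟩ := hs 1
    have hy' : x * y = 1 := hy
    have h2 : y * x = 1 := by
      apply hi
      change x * (y * x) = x * 1
      rw [← mul_assoc, hy', one_mul, mul_one]
    exact hu ⟨⟨x, y, hy', h2⟩, rfl⟩
  obtain ⟨y, hy0, hxy⟩ := hker
  refine ⟨(1 : L) ⊗ₜ[K] x, hne x hx, fun hunit => ?_⟩
  have h1 : ((1 : L) ⊗ₜ[K] x) * ((1 : L) ⊗ₜ[K] y) = 0 := by
    rw [Algebra.TensorProduct.tmul_mul_tmul, hxy, TensorProduct.tmul_zero]
  exact hne y hy0 (hunit.mul_right_eq_zero.mp h1)

omit [Algebra k A] [StarRing A] in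
theorem adiv_eq_empty [FiniteDimensional K A] {x : A} (hx : x ≠ 0) (hu : ¬ IsUnit x)
    (v : H732F.Adiv k K A) : False := by
  obtain ⟨v, φ, h⟩ := v
  letI i1 : Field (H732F.Kv v) := (inferInstance : Field v.abv.Completion)
  letI i2 : Algebra K (H732F.Kv v) := (φ : K →+* H732F.Kv v).toAlgebra
  obtain ⟨z, hz, hzu⟩ := exists_not_isUnit (K := K) (H732F.Kv v) hx hu
  exact hzu (h z hz)

/-- The statement for an algebra which is not a division algebra. -/
theorem concl_of_not_division [FiniteDimensional K A] {x : A} (hx : x ≠ 0) (hu : ¬ IsUnit x)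
    (f : A →ₐ[K] Matrix (Fin n) (Fin n) F)
    (hT : ∀ N : Subgroup (H732F.GK f), N.index ≠ 0 → N = ⊤) :
    ∃ δ : H732F.GK f →* H732F.HA A n (H732F.Adiv k K A), H732F.IsDiagonal δ ∧ DenseRange δ ∧
      ∀ N : Subgroup (H732F.GK f), N.index ≠ 0 → H732F.IsOpenPreimage δ N := by
  have hE : ∀ z : H732F.HA A n (H732F.Adiv k K A), z = 1 := fun z =>
    funext fun v => (adiv_eq_empty hx hu v).elim
  refine ⟨1, fun _ v => (adiv_eq_empty hx hu v).elim, fun z => ?_, fun N hN => ?_⟩
  · rw [hE z]
    exact subset_closure ⟨1, hE _⟩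
  · refine ⟨⊤, isOpen_univ, ?_, fun _ => inferInstance⟩
    rw [Subgroup.comap_top]
    exact hT N hN

end empty

/-- **Type `A`, number fields, every algebra**: from `MP n` for all `n ≥ 3`, and the statement on
algebras which are not division algebras. -/
theorem typeA_nf_of {k K A F : Type} [Field k] [NumberField k] [Field K] [Algebra k K] [StarRing K]
    [Ring A] [StarRing A] [Algebra k A] [Algebra K A] [IsScalarTower k K A] [StarModule K A] {n : ℕ}
    (hA : Anis k K A n) (hn : 3 ≤ n)
    [Field F] [Algebra K F] (f : A →ₐ[K] Matrix (Fin n) (Fin n) F)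
    (hMP : Pow.MP n)
    (hT : (∃ x : A, x ≠ 0 ∧ ¬ IsUnit x) → ∀ N : Subgroup (H732F.GK f), N.index ≠ 0 → N = ⊤) :
    ∃ δ : H732F.GK f →* H732F.HA A n (H732F.Adiv k K A), H732F.IsDiagonal δ ∧ DenseRange δ ∧
      ∀ N : Subgroup (H732F.GK f), N.index ≠ 0 → H732F.IsOpenPreimage δ N := by
  have hAf : FiniteDimensional K A := FiniteDimensional.of_finrank_pos (by
    rw [hA.finrank_eq]; positivity)
  by_cases hdiv : ∃ x : A, x ≠ 0 ∧ ¬ IsUnit x
  · obtain ⟨x, hx, hu⟩ := hdiv
    exact concl_of_not_division hx hu f (hT ⟨x, hx, hu⟩)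
  · push Not at hdiv
    have hcen := hA.central
    have hsim := hA.simple
    let _ : DivisionRing A := DivisionRing.ofIsUnitOrEqZero fun x => by
      by_cases hx : x = 0
      · exact Or.inr hx
      · exact Or.inl (hdiv x hx)
    have hKf : FiniteDimensional k K := (H519.quad hA.fixed hA.star_ne).1
    have hKn : NumberField K := NumberField.of_module_finite k K
    exact transport (H272.q1_of_mp hA.fixed hA.star_ne hn hMP hA.finrank_eq f)

end Vale.Agent.P011.H973.Full
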