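import Mathlib.LinearAlgebra.Matrix.Determinant.Basic
import Mathlib.RingTheory.TensorProduct.Maps
import Mathlib.Topology.Algebra.Module.ModuleTopology

/-!
# Change of the ring of scalars of an algebra with the module topology

`e : R₁ ≃+* R₂`, `Θ : M₁ ≃+* M₂` an isomorphism of rings, semilinear over `e`.
-/

open TensorProduct

namespace Vale.Agent.P011.H973.Full

section semi

variable {R₁ R₂ M₁ M₂ : Type} [CommRing R₁] [CommRing R₂] [Ring M₁] [Ring M₂] [Algebra R₁ M₁]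
  [Algebra R₂ M₂] (e : R₁ ≃+* R₂) (Θ : M₁ ≃+* M₂) (hΘ : ∀ (r : R₁) (x : M₁), Θ (r • x) = e r • Θ x)

include hΘ in
theorem semi_symm (r : R₂) (x : M₂) : Θ.symm (r • x) = e.symm r • Θ.symm x := by
  rw [RingEquiv.symm_apply_eq, hΘ, RingEquiv.apply_symm_apply, RingEquiv.apply_symm_apply]

include hΘ in
theorem nrd_semi {n : ℕ} {x : M₁}
    (h : ∀ (Ω : Type) [Field Ω] [Algebra R₁ Ω] (F : M₁ →ₐ[R₁] Matrix (Fin n) (Fin n) Ω),
      (F x).det = 1)
    (Ω : Type) [Field Ω] [Algebra R₂ Ω] (F : M₂ →ₐ[R₂] Matrix (Fin n) (Fin n) Ω) :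
    (F (Θ x)).det = 1 := by
  letI i1 : Algebra R₁ Ω := ((algebraMap R₂ Ω).comp e.toRingHom).toAlgebra
  have ha : ∀ r : R₁, algebraMap R₁ Ω r = algebraMap R₂ Ω (e r) := fun r => rfl
  let F' : M₁ →ₐ[R₁] Matrix (Fin n) (Fin n) Ω :=
    { (F : M₂ →+* Matrix (Fin n) (Fin n) Ω).comp Θ.toRingHom with
      commutes' := by
        intro r
        change F (Θ (algebraMap R₁ M₁ r)) = _
        rw [Algebra.algebraMap_eq_smul_one, hΘ, map_one, map_smul, map_one, Algebra.smul_def,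
          mul_one, Matrix.algebraMap_eq_diagonal, Matrix.algebraMap_eq_diagonal]
        rfl }
  exact h Ω F'

include hΘ in
theorem unitary_semi (P : (M₁ →ₗ[R₁] M₁) → Prop) (Q : (M₂ →ₗ[R₂] M₂) → Prop)
    (hPQ : ∀ (σ₂ : M₂ →ₗ[R₂] M₂) (σ₁ : M₁ →ₗ[R₁] M₁), (∀ x, σ₁ x = Θ.symm (σ₂ (Θ x))) →
      Q σ₂ → P σ₁) {x : M₁} (h : ∀ σ : M₁ →ₗ[R₁] M₁, P σ → x * σ x = 1)
    (σ₂ : M₂ →ₗ[R₂] M₂) (hσ : Q σ₂) : Θ x * σ₂ (Θ x) = 1 := by
  let σ₁ : M₁ →ₗ[R₁] M₁ :=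
    { toFun := fun x => Θ.symm (σ₂ (Θ x))
      map_add' := by intro x y; rw [map_add, map_add, map_add]
      map_smul' := by
        intro r x
        rw [hΘ, map_smul, semi_symm e Θ hΘ, RingEquiv.symm_apply_apply, RingHom.id_apply] }
  have h1 := h σ₁ (hPQ σ₂ σ₁ (fun _ => rfl) hσ)
  have h2 := congrArg Θ h1
  rw [map_mul, map_one] at h2
  have h3 : Θ (σ₁ x) = σ₂ (Θ x) := Θ.apply_symm_apply _
  rwa [h3] at h2

include hΘ in
theorem continuous_semi [TopologicalSpace R₁] [TopologicalSpace R₂] (he : Continuous e) :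
    @Continuous M₁ M₂ (moduleTopology R₁ M₁) (moduleTopology R₂ M₂) Θ := by
  letI t1 : TopologicalSpace M₁ := moduleTopology R₁ M₁
  letI t2 : TopologicalSpace M₂ := moduleTopology R₂ M₂
  haveI : IsModuleTopology R₁ M₁ := ⟨rfl⟩
  haveI : ContinuousSMul R₂ M₂ := ModuleTopology.continuousSMul R₂ M₂
  haveI : ContinuousAdd M₂ := ModuleTopology.continuousAdd R₂ M₂
  let φ : M₁ →ₛₗ[e.toRingHom] M₂ :=
    { toFun := Θ
      map_add' := map_add Θ
      map_smul' := fun r x => hΘ r x }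
  exact IsModuleTopology.continuous_of_linearMapₛₗ (σ := e.toRingHom) he φ

end semi

section tensor

variable {k R₁ R₂ A : Type} [Field k] [CommRing R₁] [CommRing R₂] [Algebra k R₁] [Algebra k R₂]
  [Ring A] [Algebra k A] (e : R₁ ≃ₐ[k] R₂)

/-- The change of the ring of scalars. -/
noncomputable def congrR : R₁ ⊗[k] A ≃+* R₂ ⊗[k] A :=
  (Algebra.TensorProduct.congr e (AlgEquiv.refl (R := k) (A₁ := A))).toRingEquiv

theorem congrR_tmul (r : R₁) (x : A) : congrR (A := A) e (r ⊗ₜ[k] x) = e r ⊗ₜ[k] x := rfl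

theorem congrR_smul (r : R₁) (x : R₁ ⊗[k] A) : congrR (A := A) e (r • x) = e r • congrR e x := by
  induction x using TensorProduct.induction_on with
  | zero => rw [smul_zero, map_zero, smul_zero]
  | tmul a b => rw [smul_tmul', congrR_tmul, congrR_tmul, smul_tmul', smul_eq_mul, smul_eq_mul,
      map_mul]
  | add x y hx hy => rw [smul_add, map_add, map_add, smul_add, hx, hy]

theorem congrR_in (x : A) : congrR (A := A) e ((1 : R₁) ⊗ₜ[k] x) = (1 : R₂) ⊗ₜ[k] x := by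
  rw [congrR_tmul, map_one]

end tensor

section adiv

variable {k K R₁ R₂ A : Type} [Field k] [Field K] [Algebra k K] [CommRing R₁] [CommRing R₂]
  [Algebra k R₁] [Algebra k R₂] [Ring A] [Algebra K A]

theorem adiv_transport (e : R₁ ≃ₐ[k] R₂) (φ : K →ₐ[k] R₁)
    (h : letI := (φ : K →+* R₁).toAlgebra; ∀ x : R₁ ⊗[K] A, x ≠ 0 → IsUnit x) :
    letI := (((e : R₁ →ₐ[k] R₂).comp φ : K →ₐ[k] R₂) : K →+* R₂).toAlgebra
    ∀ x : R₂ ⊗[K] A, x ≠ 0 → IsUnit x := by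
  letI i1 := (φ : K →+* R₁).toAlgebra
  letI i2 := (((e : R₁ →ₐ[k] R₂).comp φ : K →ₐ[k] R₂) : K →+* R₂).toAlgebra
  intro x hx
  let eK : R₁ ≃ₐ[K] R₂ := AlgEquiv.ofRingEquiv (f := e.toRingEquiv) (fun r => rfl)
  let Ψ : R₁ ⊗[K] A ≃ₐ[K] R₂ ⊗[K] A := Algebra.TensorProduct.congr eK AlgEquiv.refl
  have h1 : Ψ.symm x ≠ 0 := by
    intro h0
    apply hx
    rw [← Ψ.apply_symm_apply x, h0, map_zero]
  have h2 := h (Ψ.symm x) h1
  have h3 := h2.map Ψ
  rwa [Ψ.apply_symm_apply] at h3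

end adiv

end Vale.Agent.P011.H973.Full
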