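import Vale.Agent.P011.H973.Full.Two
import Vale.Agent.P011.H973.Full.Semi

/-!
# The groups `G(k_v)` in the letters of the places and of the normalized absolute values
-/

open TensorProduct Topology
open Vale.Agent.P011.H738 (Place SUA)

namespace Vale.Agent.P011.H973.Full

noncomputable section

section loc

variable {k : Type} [Field k] (w : Place k)

theorem continuous_eTwo : Continuous (eTwo w) := continuous_eAbv (isEquiv_two w)

theorem continuous_eTwo_symm : Continuous (eTwo w).symm := continuous_eAbv_symm (isEquiv_two w)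

variable (A : Type) [Ring A] [Algebra k A]

/-- The algebras `A_v`. -/
def gaV : H732F.Av k A w ≃+* Q1.Compl (two w) ⊗[k] A := congrR (A := A) (eTwo w)

theorem gaV_smul (r : H732F.Kv w) (x : H732F.Av k A w) :
    gaV w A (r • x) = (eTwo w).toRingEquiv r • gaV w A x := congrR_smul (A := A) (eTwo w) r x

theorem gaV_in (x : A) : gaV w A (H732F.inAv k A w x) = 1 ⊗ₜ[k] x := congrR_in (A := A) (eTwo w) x

theorem gaV_symm_in (x : A) : (gaV w A).symm (1 ⊗ₜ[k] x) = H732F.inAv k A w x := by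
  rw [RingEquiv.symm_apply_eq, gaV_in]

/-- The topology of the algebra. -/
abbrev topQ : TopologicalSpace (Q1.Compl (two w) ⊗[k] A) := moduleTopology (Q1.Compl (two w)) _

theorem continuous_gaV : @Continuous _ _ _ (topQ w A) (gaV w A) :=
  continuous_semi (eTwo w).toRingEquiv (gaV w A) (gaV_smul w A) (continuous_eTwo w)

theorem continuous_gaV_symm : @Continuous _ _ (topQ w A) _ (gaV w A).symm :=
  continuous_semi (eTwo w).toRingEquiv.symm (gaV w A).symm
    (semi_symm (eTwo w).toRingEquiv (gaV w A) (gaV_smul w A)) (continuous_eTwo_symm w)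

variable {A} [StarRing A] {n : ℕ}

theorem gaV_isSU {x : (H732F.Av k A w)ˣ} (hx : x ∈ H732F.Gv A w n) :
    Q1.IsSU (Q1.Compl (two w)) (fun y : A => (1 : Q1.Compl (two w)) ⊗ₜ[k] y) n
      (gaV w A (x : H732F.Av k A w)) := by
  obtain ⟨h1, h2⟩ := hx
  refine ⟨?_, ?_⟩
  · refine unitary_semi (eTwo w).toRingEquiv (gaV w A) (gaV_smul w A)
      (fun σ => ∀ y : A, σ (H732F.inAv k A w y) = H732F.inAv k A w (star y)) _ ?_ h1
    intro σ₂ σ₁ h hQ y
    rw [h, gaV_in, hQ, gaV_symm_in]
  · exact nrd_semi (eTwo w).toRingEquiv (gaV w A) (gaV_smul w A) h2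

theorem mem_gv_of_isSU {y : Q1.Compl (two w) ⊗[k] A}
    (hy : Q1.IsSU (Q1.Compl (two w)) (fun y : A => (1 : Q1.Compl (two w)) ⊗ₜ[k] y) n y) :
    H732F.IsUnitary A ((gaV w A).symm y) ∧ H732F.NrdOne A n ((gaV w A).symm y) := by
  obtain ⟨h1, h2⟩ := hy
  refine ⟨?_, ?_⟩
  · refine unitary_semi (eTwo w).toRingEquiv.symm (gaV w A).symm
      (semi_symm (eTwo w).toRingEquiv (gaV w A) (gaV_smul w A))
      (fun σ => ∀ y : A, σ ((1 : Q1.Compl (two w)) ⊗ₜ[k] y) = 1 ⊗ₜ[k] (star y)) _ ?_ h1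
    intro σ₂ σ₁ h hQ y
    rw [h, gaV_symm_in, hQ, RingEquiv.symm_symm, gaV_in]
  · exact nrd_semi (eTwo w).toRingEquiv.symm (gaV w A).symm
      (semi_symm (eTwo w).toRingEquiv (gaV w A) (gaV_smul w A)) h2

variable (A n) in
/-- The group of the unitary elements of reduced norm one. -/
abbrev grpQ : Subgroup (Q1.Compl (two w) ⊗[k] A)ˣ :=
  Q1.groupSU (Q1.Compl (two w)) (fun y : A => (1 : Q1.Compl (two w)) ⊗ₜ[k] y) n

theorem map_gv : (H732F.Gv A w n).map (Units.mapEquiv (gaV w A).toMulEquiv).toMonoidHom =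
    grpQ w A n := by
  have h : ((H732F.Gv A w n).map (Units.mapEquiv (gaV w A).toMulEquiv).toMonoidHom :
      Set (Q1.Compl (two w) ⊗[k] A)ˣ) = {x : (Q1.Compl (two w) ⊗[k] A)ˣ |
        Q1.IsSU (Q1.Compl (two w)) (fun y : A => (1 : Q1.Compl (two w)) ⊗ₜ[k] y) n
          (x : Q1.Compl (two w) ⊗[k] A)} := by
    ext y
    constructor
    · rintro ⟨x, hx, rfl⟩
      exact gaV_isSU w hx
    · intro hy
      refine ⟨(Units.mapEquiv (gaV w A).toMulEquiv).symm y, ?_, ?_⟩
      · exact mem_gv_of_isSU w hy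
      · exact (Units.mapEquiv (gaV w A).toMulEquiv).apply_symm_apply y
  change _ = Subgroup.closure _
  rw [← h, Subgroup.closure_eq]

theorem gaV_mem {x : (H732F.Av k A w)ˣ} (hx : x ∈ H732F.Gv A w n) :
    Units.map (gaV w A : H732F.Av k A w →* Q1.Compl (two w) ⊗[k] A) x ∈ grpQ w A n := by
  rw [← map_gv]
  exact ⟨x, hx, rfl⟩

theorem gaV_symm_mem {y : (Q1.Compl (two w) ⊗[k] A)ˣ} (hy : y ∈ grpQ w A n) :
    Units.map ((gaV w A).symm : Q1.Compl (two w) ⊗[k] A →* H732F.Av k A w) y ∈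
      H732F.Gv A w n := by
  rw [← map_gv] at hy
  obtain ⟨x, hx, rfl⟩ := hy
  have h : Units.map ((gaV w A).symm : Q1.Compl (two w) ⊗[k] A →* H732F.Av k A w)
      ((Units.mapEquiv (gaV w A).toMulEquiv).toMonoidHom x) = x :=
    Units.ext ((gaV w A).symm_apply_apply _)
  rw [h]
  exact hx

/-- The groups `G(k_v)`. -/
def ga : H732F.GTop A w n →* Q1.GR k (Q1.Compl (two w)) A n where
  toFun x := ⟨Units.map (gaV w A : H732F.Av k A w →* Q1.Compl (two w) ⊗[k] A) x.1,
    gaV_mem w x.2⟩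
  map_one' := Subtype.ext (map_one (Units.map _))
  map_mul' x y := Subtype.ext (map_mul (Units.map _) x.1 y.1)

/-- The groups `G(k_v)`. -/
def gaInv : Q1.GR k (Q1.Compl (two w)) A n →* H732F.GTop A w n where
  toFun x := ⟨Units.map ((gaV w A).symm : Q1.Compl (two w) ⊗[k] A →* H732F.Av k A w) x.1,
    gaV_symm_mem w x.2⟩
  map_one' := Subtype.ext (map_one (Units.map _))
  map_mul' x y := Subtype.ext (map_mul (Units.map _) x.1 y.1)

theorem ga_gaInv (x : Q1.GR k (Q1.Compl (two w)) A n) : ga w (gaInv w x) = x := by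
  apply Subtype.ext
  apply Units.ext
  exact (gaV w A).apply_symm_apply _

theorem continuous_ga : Continuous (ga (A := A) (n := n) w) := by
  letI : TopologicalSpace (Q1.Compl (two w) ⊗[k] A) := topQ w A
  exact ((Continuous.units_map (gaV w A : H732F.Av k A w →* Q1.Compl (two w) ⊗[k] A)
    (continuous_gaV w A)).comp continuous_subtype_val).subtype_mk _

theorem continuous_gaInv : Continuous (gaInv (A := A) (n := n) w) := by
  letI : TopologicalSpace (Q1.Compl (two w) ⊗[k] A) := topQ w A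
  exact ((Continuous.units_map ((gaV w A).symm : Q1.Compl (two w) ⊗[k] A →* H732F.Av k A w)
    (continuous_gaV_symm w A)).comp continuous_subtype_val).subtype_mk _

theorem ga_in {x : H732F.GTop A w n} {y : A} (hx : x.val = H732F.inAv k A w y) :
    Q1.IsImage (ga w x) y := by
  change gaV w A x.val = _
  rw [hx, gaV_in]

theorem gaInv_in {x : Q1.GR k (Q1.Compl (two w)) A n} {y : A} (hx : Q1.IsImage x y) :
    (gaInv w x).val = H732F.inAv k A w y := by
  change (gaV w A).symm _ = _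
  rw [← gaV_symm_in]
  exact congrArg (gaV w A).symm hx

end loc

end

end Vale.Agent.P011.H973.Full
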