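import Vale.Agent.P011.H308.PlHos

/-!
# The completion at a prime is the completion at its place

`A` a Dedekind domain with field of fractions `K₀`, `v` a prime with finite residue field. The
completion `v.adicCompletion K₀` and the completion of the place `plHos K₀ v` are isomorphic as
topological algebras over `K₀`.
-/

open IsDedekindDomain HeightOneSpectrum WithZero Vale.Agent.P011.H738 Vale.Agent.P011.H308
open scoped NNReal

namespace Vale.Agent.P011.H973.Full

noncomputable section

variable {A : Type} [CommRing A] [IsDedekindDomain A] {K₀ : Type} [Field K₀] [Algebra A K₀]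
  [IsFractionRing A K₀] (v : HeightOneSpectrum A) [Finite (A ⧸ v.asIdeal)]

variable (K₀) in
/-- The inclusion of `K₀` with the absolute value in the completion. -/
def ofPl₀ : WithAbs (plHos K₀ v).abv →+* v.adicCompletion K₀ :=
  (algebraMap K₀ (v.adicCompletion K₀)).comp (WithAbs.equiv (plHos K₀ v).abv).toRingHom

theorem valuation_le_of_hosAbv {x : K₀} {n : ℕ}
    (h : hosAbv K₀ v x ≤ (Nat.card (A ⧸ v.asIdeal) : ℝ) ^ (-(n : ℤ))) :
    v.valuation K₀ x ≤ exp (-(n : ℤ)) := by
  by_cases hx : x = 0
  · rw [hx, map_zero]; exact zero_le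
  have h0 : v.valuation K₀ x ≠ 0 := (Valuation.ne_zero_iff _).mpr hx
  rw [hosAbv_exp (exp_log h0).symm] at h
  rw [zpow_le_zpow_iff_right₀ (one_lt_qv' v)] at h
  rw [← exp_log h0, exp_le_exp]
  exact h

theorem continuous_ofPl₀ : Continuous (ofPl₀ K₀ v) := by
  refine continuous_of_continuousAt_zero _ ?_
  intro U hU
  rw [map_zero] at hU
  obtain ⟨n, hn⟩ := Vale.Agent.P011.H519.exists_ball_subset hU
  have hq : (0 : ℝ) < Nat.card (A ⧸ v.asIdeal) := zero_lt_one.trans (one_lt_qv' v)
  have h1 : {x : WithAbs (plHos K₀ v).abv | ‖x‖ ≤ (Nat.card (A ⧸ v.asIdeal) : ℝ) ^ (-(n : ℤ))} ∈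
      nhds (0 : WithAbs (plHos K₀ v).abv) := by
    have h2 := Metric.closedBall_mem_nhds (0 : WithAbs (plHos K₀ v).abv)
      (zpow_pos hq (-(n : ℤ)))
    refine Filter.mem_of_superset h2 fun x hx => ?_
    rwa [Metric.mem_closedBall, dist_zero_right] at hx
  refine Filter.mem_map.mpr (Filter.mem_of_superset h1 fun x hx => hn ?_)
  change Valued.v (algebraMap K₀ (v.adicCompletion K₀) (WithAbs.equiv _ x) - 0) ≤ _
  rw [sub_zero]
  refine le_trans (le_of_eq (valuedAdicCompletion_eq_valuation' v _)) ?_
  exact valuation_le_of_hosAbv v hx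

variable (K₀) in
/-- The map of the completions. -/
def ofPl : (plHos K₀ v).comp →+* v.adicCompletion K₀ :=
  UniformSpace.Completion.extensionHom (ofPl₀ K₀ v) (continuous_ofPl₀ v)

theorem ofPl_algebraMap (x : K₀) :
    ofPl K₀ v (algebraMap K₀ (plHos K₀ v).comp x) = algebraMap K₀ (v.adicCompletion K₀) x :=
  UniformSpace.Completion.extensionHom_coe (ofPl₀ K₀ v) (continuous_ofPl₀ v)
    (WithAbs.toAbs (plHos K₀ v).abv x)

theorem continuous_ofPl : Continuous (ofPl K₀ v) := UniformSpace.Completion.continuous_extension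

theorem continuous_toPl : Continuous (toPl K₀ v) := by
  have h1 : Continuous (UniformSpace.Completion.extensionHom (toPl₀ K₀ v) continuous_toPl₀) :=
    UniformSpace.Completion.continuous_extension
  exact h1.comp (adicCompletion.uniformEquiv K₀ v).continuous

theorem denseRange_comp {k : Type} [Field k] (w : Place k) :
    DenseRange (algebraMap k w.comp) := by
  have h := UniformSpace.Completion.denseRange_coe (α := WithAbs w.abv)
  refine h.mono ?_
  rintro _ ⟨x, rfl⟩
  exact ⟨x.ofAbs, rfl⟩

theorem toPl_ofPl (x : (plHos K₀ v).comp) : toPl K₀ v (ofPl K₀ v x) = x := by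
  have h : (fun x => toPl K₀ v (ofPl K₀ v x)) = id := by
    refine (denseRange_comp (plHos K₀ v)).equalizer
      ((continuous_toPl v).comp (continuous_ofPl v)) continuous_id ?_
    funext y
    change toPl K₀ v (ofPl K₀ v (algebraMap K₀ _ y)) = algebraMap K₀ _ y
    rw [ofPl_algebraMap, toPl_algebraMap]
  exact congrFun h x

theorem ofPl_toPl (x : v.adicCompletion K₀) : ofPl K₀ v (toPl K₀ v x) = x := by
  have h : (fun x => ofPl K₀ v (toPl K₀ v x)) = id := by
    refine (denseRange_algebraMap K₀ v).equalizer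
      ((continuous_ofPl v).comp (continuous_toPl v)) continuous_id ?_
    funext y
    change ofPl K₀ v (toPl K₀ v (algebraMap K₀ _ y)) = algebraMap K₀ _ y
    rw [toPl_algebraMap, ofPl_algebraMap]
  exact congrFun h x

end

end Vale.Agent.P011.H973.Full
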