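import Mathlib.Algebra.Central.Defs
import Mathlib.Analysis.Normed.Field.WithAbs
import Mathlib.FieldTheory.RatFunc.Basic
import Mathlib.LinearAlgebra.Matrix.Determinant.Basic
import Mathlib.NumberTheory.NumberField.Basic
import Mathlib.RingTheory.SimpleRing.Basic
import Mathlib.RingTheory.TensorProduct.Maps
import Mathlib.Topology.Algebra.Group.Basic
import Mathlib.Topology.Algebra.Module.ModuleTopology

/-!
The Margulis-Platonov conjecture for the special unitary group of a central simple algebra with an
involution of the second kind over a global field.
-/

open Module TensorProduct Topology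

namespace Vale.Agent.P011.Q1

/-- `k` is a number field or a finite extension of the field of rational functions in one variable
over a finite field. -/
def IsGlobal (k : Type) [Field k] : Prop :=
  NumberField k ∨ ∃ (F : Type) (_ : Field F) (_ : Finite F) (_ : Algebra (RatFunc F) k),
    FiniteDimensional (RatFunc F) k

/-- The conjecture for the group `G = G(k)` and the product of the topological groups
`H v = G(k_v)`; `diag v g h` says that `h` is the image of `g` in `H v`. There is a homomorphism `δ`
of `G` to the product which is diagonal and has dense image, and every subgroup `N` of finite index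
of `G` is the preimage under `δ` of an open subgroup of the product, which is normal if `N` is
normal. -/
def MP {G S : Type} {H : S → Type} [Group G] [∀ v, Group (H v)] [∀ v, TopologicalSpace (H v)]
    (diag : ∀ v, G → H v → Prop) : Prop :=
  ∃ δ : G →* ∀ v, H v, (∀ g v, diag v g (δ g v)) ∧ DenseRange δ ∧
    ∀ N : Subgroup G, N.index ≠ 0 →
      ∃ W : Subgroup (∀ v, H v), IsOpen (W : Set (∀ v, H v)) ∧ N = W.comap δ ∧
        (N.Normal → W.Normal)

/-- Let `i : A → B` be the inclusion of `A` in `B = R ⊗ A`. The element `x` of `B` is unitary, i.e.
`x σ(x) = 1` for the extension `σ` of the involution of `A` to a linear map of `B` over `R`, and it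
has reduced norm one, i.e. the determinant of the image of `x` is one under every homomorphism of
algebras over `R` from `B` to the `n × n` matrices over a field, where `n` is the degree of `A`. -/
def IsSU (R : Type) {A B : Type} [CommRing R] [Ring B] [Algebra R B] [Star A] (i : A → B) (n : ℕ)
    (x : B) : Prop :=
  (∀ σ : B →ₗ[R] B, (∀ y : A, σ (i y) = i (star y)) → x * σ x = 1) ∧
    ∀ (Ω : Type) [Field Ω] [Algebra R Ω] (F : B →ₐ[R] Matrix (Fin n) (Fin n) Ω), (F x).det = 1

/-- The group of the unitary elements of reduced norm one of `B`. -/
def groupSU (R : Type) {A B : Type} [CommRing R] [Ring B] [Algebra R B] [Star A] (i : A → B)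
    (n : ℕ) : Subgroup Bˣ :=
  Subgroup.closure {x : Bˣ | IsSU R i n (x : B)}

section

variable (k R A : Type) [Field k] [CommRing R] [Algebra k R] [Ring A] [Algebra k A] [Star A]
  (n : ℕ)

/-- The group `G(R)` of the unitary elements of reduced norm one of `R ⊗ A`. -/
def GR : Type := groupSU R (fun y : A => (1 : R) ⊗ₜ[k] y) n

noncomputable instance instGroupGR : Group (GR k R A n) :=
  Subgroup.toGroup (groupSU R (fun y : A => (1 : R) ⊗ₜ[k] y) n)

/-- `G(R)` has the topology of a subspace of the group of units of the `R`-module `R ⊗ A` with the
module topology. -/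
noncomputable instance instTopGR [TopologicalSpace R] : TopologicalSpace (GR k R A n) :=
  @instTopologicalSpaceSubtype _ _
    (@Units.instTopologicalSpaceUnits _ (moduleTopology R (R ⊗[k] A)) _)

variable {k R A n}

/-- The element `x` of `G(R)` is the image of `y`. -/
def IsImage (x : GR k R A n) (y : A) : Prop :=
  ((Subtype.val x : (R ⊗[k] A)ˣ) : R ⊗[k] A) = 1 ⊗ₜ y

end

/-- `B` is a division ring. -/
def IsDivision (B : Type) [Ring B] : Prop := ∀ x : B, x ≠ 0 → IsUnit x

/-- `K` embeds in `L` and `L ⊗_K A` is a division ring. -/
def SplitDiv (k K L A : Type) [Field k] [Field K] [CommRing L] [Ring A] [Algebra k K] [Algebra k L]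
    [Algebra K A] : Prop :=
  ∃ φ : K →ₐ[k] L, letI := (φ : K →+* L).toAlgebra; IsDivision (L ⊗[K] A)

section

variable {k : Type} [Field k] (a : AbsoluteValue k ℝ)

/-- The completion of `k` at the absolute value `a`. -/
def Compl : Type := a.Completion

noncomputable instance instRingCompl : CommRing (Compl a) := (inferInstance : CommRing a.Completion)

noncomputable instance instTopCompl : TopologicalSpace (Compl a) :=
  (inferInstance : TopologicalSpace a.Completion)

noncomputable instance instAlgCompl : Algebra k (Compl a) :=
  (inferInstance : Algebra k a.Completion)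

end

/-- The places `v` of `k` such that `K` embeds in `k_v` and `k_v ⊗_K A` is a division ring. A
nonarchimedean place of `k` is given by the absolute value of the place, normalized so that the
nonzero absolute values are the integral powers of two. -/
structure AG (k K A : Type) [Field k] [Field K] [Ring A] [Algebra k K] [Algebra K A] where
  /-- The absolute value. -/
  abv : AbsoluteValue k ℝ
  nonarch : IsNonarchimedean abv
  disc : ∀ y : ℝ, (∃ x ≠ 0, abv x = y) ↔ ∃ m : ℤ, y = 2 ^ m
  div : SplitDiv k K (Compl abv) A

/-- The group `G(k)` of the unitary elements of reduced norm one of `A`; the reduced norm is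
computed with the splitting `f` of `A`. -/
def SU {K A F : Type} [Field K] [Ring A] [Star A] [Field F] [Algebra K A] [Algebra K F] {n : ℕ}
    (f : A →ₐ[K] Matrix (Fin n) (Fin n) F) : Subgroup Aˣ :=
  Subgroup.closure {g : Aˣ | (g : A) * star (g : A) = 1 ∧ (f g).det = 1}

/-- The conjecture for the special unitary group of `A`. -/
def MPA (k : Type) {K A F : Type} [Field k] [Field K] [Ring A] [StarRing A] [Field F] [Algebra k K]
    [Algebra k A] [Algebra K A] [Algebra K F] {n : ℕ} (f : A →ₐ[K] Matrix (Fin n) (Fin n) F) :
    Prop :=
  MP (G := SU f) (S := AG k K A) (H := fun v => GR k (Compl v.abv) A n)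
    (fun _ g x => IsImage x ((g : Aˣ) : A))

/-- The setting: `k` is a global field and `A` is central simple of degree `n ≥ 3` over `K`, with an
involution of the second kind with fixed field `k`, and no nonzero isotropic elements; if `k` is a
number field then `A` is not a matrix algebra over `K`. -/
structure Outer (k K A : Type) [Field k] [Field K] [StarRing K] [Ring A] [StarRing A] [Algebra k K]
    [Algebra k A] [Algebra K A] (n : ℕ) : Prop where
  tower : IsScalarTower k K A
  smul : StarModule K A
  global : IsGlobal k
  fixed : ∀ x : K, star x = x ↔ x ∈ Set.range (algebraMap k K)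
  star_ne : ∃ x : K, star x ≠ x
  central : Algebra.IsCentral K A
  simple : IsSimpleRing A
  le : 3 ≤ n
  rank : finrank K A = n ^ 2
  aniso : ∀ x : A, star x * x = 0 → x = 0
  nonsplit : NumberField k → ¬∃ m : ℕ, Nonempty (A ≃ₐ[K] Matrix (Fin m) (Fin m) K)

end Vale.Agent.P011.Q1
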