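import Vale.Agent.P011.H973.Full.Defs
import Mathlib.Analysis.AbsoluteValue.Equivalence

/-!
# The completions of a field at equivalent absolute values
-/

open Topology

namespace Vale.Agent.P011.H973.Full

noncomputable section

variable {k : Type} [Field k] {a b : AbsoluteValue k ℝ}

variable (a b) in
/-- The inclusion of `k` with `a` in the completion at `b`. -/
def ofAbv₀ : WithAbs a →+* b.Completion :=
  (UniformSpace.Completion.coeRingHom : WithAbs b →+* b.Completion).comp
    (WithAbs.congr a b (RingEquiv.refl k)).toRingHom

theorem continuous_ofAbv₀ (h : a.IsEquiv b) : Continuous (ofAbv₀ a b) :=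
  (UniformSpace.Completion.continuous_coe _).comp
    ((AbsoluteValue.isEquiv_iff_isHomeomorph a b).mp h).continuous

/-- The map of the completions. -/
def ofAbv (h : a.IsEquiv b) : a.Completion →+* b.Completion :=
  UniformSpace.Completion.extensionHom (ofAbv₀ a b) (continuous_ofAbv₀ h)

theorem continuous_ofAbv (h : a.IsEquiv b) : Continuous (ofAbv h) :=
  UniformSpace.Completion.continuous_extension

theorem ofAbv_algebraMap (h : a.IsEquiv b) (x : k) :
    ofAbv h (algebraMap k a.Completion x) = algebraMap k b.Completion x :=
  UniformSpace.Completion.extensionHom_coe (ofAbv₀ a b) (continuous_ofAbv₀ h)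
    (WithAbs.toAbs a x)

theorem denseRange_algebraMap_completion : DenseRange (algebraMap k a.Completion) := by
  have h := UniformSpace.Completion.denseRange_coe (α := WithAbs a)
  refine h.mono ?_
  rintro _ ⟨x, rfl⟩
  exact ⟨x.ofAbs, rfl⟩

theorem ofAbv_ofAbv (h : a.IsEquiv b) (h' : b.IsEquiv a) (x : a.Completion) :
    ofAbv h' (ofAbv h x) = x := by
  have h1 : (fun x => ofAbv h' (ofAbv h x)) = id := by
    refine denseRange_algebraMap_completion.equalizer
      ((continuous_ofAbv h').comp (continuous_ofAbv h)) continuous_id ?_
    funext y
    change ofAbv h' (ofAbv h (algebraMap k _ y)) = algebraMap k _ y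
    rw [ofAbv_algebraMap, ofAbv_algebraMap]
  exact congrFun h1 x

/-- The isomorphism of the completions. -/
def eAbv (h : a.IsEquiv b) : a.Completion ≃ₐ[k] b.Completion :=
  AlgEquiv.ofRingEquiv
    (f := ({ toFun := ofAbv h
             invFun := ofAbv h.symm
             left_inv := ofAbv_ofAbv h h.symm
             right_inv := ofAbv_ofAbv h.symm h
             map_mul' := map_mul _
             map_add' := map_add _ } : a.Completion ≃+* b.Completion))
    (fun x => ofAbv_algebraMap h x)

theorem continuous_eAbv (h : a.IsEquiv b) : Continuous (eAbv h) := continuous_ofAbv h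

theorem continuous_eAbv_symm (h : a.IsEquiv b) : Continuous (eAbv h).symm :=
  continuous_ofAbv h.symm

end

end Vale.Agent.P011.H973.Full
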