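import Vale.Agent.P011.H973.Full.CompIso
import Mathlib.NumberTheory.NumberField.Completion.FinitePlace
import Mathlib.RingTheory.Valuation.ValuationSubring

/-!
# The places of a number field are given by the primes of its ring of integers
-/

open IsDedekindDomain HeightOneSpectrum WithZero Vale.Agent.P011.H738 Vale.Agent.P011.H308
open scoped NNReal

namespace Vale.Agent.P011.H973.Full

section ext

variable {k : Type} [Field k]

theorem place_ext {w w' : Place k} (h : ∀ x, w.abv x = w'.abv x) : w = w' := by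
  have h1 : w.abv = w'.abv := DFunLike.ext _ _ h
  cases w
  cases w'
  subst h1
  rfl

/-- The valuation ring of a place. -/
def valSub (w : Place k) : ValuationSubring k :=
  { integers w.abv w.nonarch with
    mem_or_inv_mem' := by
      intro x
      by_cases hx : w.abv x ≤ 1
      · exact Or.inl hx
      · refine Or.inr ?_
        change w.abv x⁻¹ ≤ 1
        rw [map_inv₀]
        exact inv_le_one_of_one_le₀ (not_le.mp hx).le }

theorem abv_le_one_of_isIntegral (w : Place k) {x : k} (hx : IsIntegral ℤ x) : w.abv x ≤ 1 := by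
  have h1 : IsIntegral (valSub w) x := hx.tower_top
  obtain ⟨y, hy⟩ := IsIntegrallyClosed.isIntegral_iff.1 h1
  rw [← hy]
  exact y.2

theorem one_lt_res (w : Place k) :
    1 < (Nat.card (integers w.abv w.nonarch ⧸ maxIdeal w.abv w.nonarch) : ℝ) := by
  haveI := w.normalized.1
  haveI : Nontrivial (integers w.abv w.nonarch ⧸ maxIdeal w.abv w.nonarch) := by
    apply Ideal.Quotient.nontrivial_iff.mpr
    intro h
    have h1 : (1 : integers w.abv w.nonarch) ∈ maxIdeal w.abv w.nonarch := by
      rw [h]; exact Submodule.mem_top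
    change w.abv ((1 : integers w.abv w.nonarch) : k) < 1 at h1
    rw [OneMemClass.coe_one, map_one] at h1
    exact lt_irrefl _ h1
  exact_mod_cast Finite.one_lt_card

end ext

section ded

variable {A : Type} [CommRing A] [IsDedekindDomain A] {K₀ : Type} [Field K₀] [Algebra A K₀]
  [IsFractionRing A K₀] (w : Place K₀) (hw : ∀ a : A, w.abv (algebraMap A K₀ a) ≤ 1)

/-- The ideal of `A` of the place. -/
def placeIdeal : Ideal A where
  carrier := {a | w.abv (algebraMap A K₀ a) < 1}
  add_mem' := by
    intro a b ha hb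
    change w.abv (algebraMap A K₀ (a + b)) < 1
    rw [map_add]
    exact (w.nonarch _ _).trans_lt (max_lt ha hb)
  zero_mem' := by
    change w.abv (algebraMap A K₀ 0) < 1
    rw [map_zero, map_zero]
    exact zero_lt_one
  smul_mem' := by
    intro c a ha
    change w.abv (algebraMap A K₀ (c * a)) < 1
    rw [map_mul, map_mul]
    exact mul_lt_one_of_nonneg_of_lt_one_right (hw c) (w.abv.nonneg _) ha

include hw in
theorem placeIdeal_prime : (placeIdeal w hw).IsPrime := by
  refine ⟨fun h => ?_, fun {a b} hab => ?_⟩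
  · have h1 : (1 : A) ∈ placeIdeal w hw := by rw [h]; exact Submodule.mem_top
    change w.abv (algebraMap A K₀ 1) < 1 at h1
    rw [map_one, map_one] at h1
    exact lt_irrefl _ h1
  · change w.abv (algebraMap A K₀ a) < 1 ∨ w.abv (algebraMap A K₀ b) < 1
    change w.abv (algebraMap A K₀ (a * b)) < 1 at hab
    rw [map_mul, map_mul] at hab
    by_contra hcon
    rw [not_or, not_lt, not_lt] at hcon
    have h1 := le_antisymm (hw a) hcon.1
    have h2 := le_antisymm (hw b) hcon.2
    rw [h1, h2, one_mul] at hab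
    exact lt_irrefl _ hab

theorem placeIdeal_ne_bot : placeIdeal w hw ≠ ⊥ := by
  intro h
  obtain ⟨x, hx⟩ := w.normalized.2.1
  have h1 : ∀ a : A, a ≠ 0 → w.abv (algebraMap A K₀ a) = 1 := by
    intro a ha
    refine le_antisymm (hw a) (not_lt.mp fun hlt => ha ?_)
    have h2 : a ∈ placeIdeal w hw := hlt
    rw [h] at h2
    exact h2
  obtain ⟨a, b, hb, hab⟩ := IsFractionRing.div_surjective (A := A) x
  have hb0 : b ≠ 0 := nonZeroDivisors.ne_zero hb
  have h2 : w.abv x ≤ 1 := by
    rw [← hab, map_div₀, h1 b hb0, div_one]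
    exact hw a
  rw [hx] at h2
  exact absurd h2 (not_le.mpr (one_lt_res w))

/-- The prime of the place. -/
def placePrime : HeightOneSpectrum A :=
  ⟨placeIdeal w hw, placeIdeal_prime w hw, placeIdeal_ne_bot w hw⟩

theorem abv_of_not_mem {a : A} (ha : a ∉ (placePrime w hw).asIdeal) :
    w.abv (algebraMap A K₀ a) = 1 :=
  le_antisymm (hw a) (not_lt.mp fun h => ha h)

theorem abv_le_of_val {x : K₀} (hx : (placePrime w hw).valuation K₀ x ≤ 1) : w.abv x ≤ 1 := by
  obtain ⟨n, d, hnd⟩ := exists_primeCompl_mul_eq_of_integer (placePrime w hw) x hx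
  have h1 := abv_of_not_mem w hw (a := d) d.2
  have h2 := congrArg w.abv hnd
  rw [map_mul, h1, mul_one] at h2
  rw [h2]
  exact hw n

theorem abv_lt_of_val {x : K₀} (hx : (placePrime w hw).valuation K₀ x < 1) : w.abv x < 1 := by
  obtain ⟨n, d, hnd⟩ := exists_primeCompl_mul_eq_of_integer (placePrime w hw) x hx.le
  have h1 := abv_of_not_mem w hw (a := d) d.2
  have h2 := congrArg w.abv hnd
  rw [map_mul, h1, mul_one] at h2
  rw [h2]
  have h3 : (placePrime w hw).valuation K₀ (algebraMap A K₀ d) ≤ 1 := valuation_le_one _ _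
  have h4 : (placePrime w hw).valuation K₀ (algebraMap A K₀ n) < 1 := by
    rw [← hnd, map_mul]
    exact (mul_le_mul_right h3 _).trans_lt (by rwa [mul_one])
  exact (valuation_lt_one_iff_mem (placePrime w hw) n).mp h4

theorem abv_eq_one_of_val {x : K₀} (hx : (placePrime w hw).valuation K₀ x = 1) : w.abv x = 1 := by
  refine le_antisymm (abv_le_of_val w hw hx.le) ?_
  have h1 : w.abv x⁻¹ ≤ 1 := by
    apply abv_le_of_val w hw
    rw [map_inv₀, hx, inv_one]
  rw [map_inv₀] at h1
  have h0 : x ≠ 0 := by
    rintro rfl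
    rw [map_zero] at hx
    exact zero_ne_one hx
  exact (inv_le_one₀ (AbsoluteValue.pos _ h0)).mp h1

/-- The absolute value of the place is the power of the order of its residue field. -/
theorem abv_exp {x : K₀} {m : ℤ} (hx : (placePrime w hw).valuation K₀ x = exp m) :
    w.abv x = (Nat.card (integers w.abv w.nonarch ⧸ maxIdeal w.abv w.nonarch) : ℝ) ^ m := by
  obtain ⟨π, hπ⟩ := valuation_exists_uniformizer K₀ (placePrime w hw)
  have hπ0 : π ≠ 0 := by
    rintro rfl
    rw [map_zero] at hπ
    exact exp_ne_zero hπ.symm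
  have hq := one_lt_res w
  set q : ℝ := (Nat.card (integers w.abv w.nonarch ⧸ maxIdeal w.abv w.nonarch) : ℝ) with hqdef
  have key : ∀ {y : K₀} {r : ℤ}, (placePrime w hw).valuation K₀ y = exp r →
      w.abv y = (w.abv π) ^ (-r) := by
    intro y r hy
    have h1 : (placePrime w hw).valuation K₀ (y * π ^ r) = 1 := by
      rw [map_mul, map_zpow₀, hy, hπ, ← exp_zsmul, ← exp_add, smul_eq_mul, mul_neg, mul_one,
        add_neg_cancel, exp_zero]
    have h2 := abv_eq_one_of_val w hw h1
    rw [map_mul, map_zpow₀] at h2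
    rw [zpow_neg]
    exact eq_inv_of_mul_eq_one_left h2
  obtain ⟨j, hj⟩ := w.normalized.2.2 π hπ0
  rw [← hqdef] at hj
  have hj0 : j < 0 := by
    have h1 : w.abv π < 1 := by
      apply abv_lt_of_val w hw
      rw [hπ, ← exp_zero, exp_lt_exp]
      norm_num
    rw [hj] at h1
    by_contra hcon
    exact absurd h1 (not_lt.mpr (one_le_zpow₀ hq.le (not_lt.mp hcon)))
  obtain ⟨y, hy⟩ := w.normalized.2.1
  rw [← hqdef] at hy
  have hy0 : y ≠ 0 := by
    rintro rfl
    rw [map_zero] at hy
    linarith
  have hv0 : (placePrime w hw).valuation K₀ y ≠ 0 := (Valuation.ne_zero_iff _).mpr hy0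
  have h3 := key (exp_log hv0).symm
  rw [hy, hj, ← zpow_mul] at h3
  have h4 : (1 : ℤ) = j * -log ((placePrime w hw).valuation K₀ y) := by
    apply zpow_right_injective₀ (zero_lt_one.trans hq) hq.ne'
    change q ^ (1 : ℤ) = q ^ (j * -log ((placePrime w hw).valuation K₀ y))
    rw [zpow_one]
    exact h3
  have h5 : j = -1 := by
    rcases Int.isUnit_iff.mp (IsUnit.of_mul_eq_one _ h4.symm) with h | h
    · omega
    · exact h
  rw [key hx, hj, h5, ← zpow_mul]
  norm_num

theorem placePrime_finite : Finite (A ⧸ (placePrime w hw).asIdeal) ∧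
    Nat.card (integers w.abv w.nonarch ⧸ maxIdeal w.abv w.nonarch) =
      Nat.card (A ⧸ (placePrime w hw).asIdeal) := by
  let I := integers w.abv w.nonarch
  let M : Ideal I := maxIdeal w.abv w.nonarch
  let g : A →+* I := (algebraMap A K₀).codRestrict I (fun a => hw a)
  have hg : ∀ a, ((g a : I) : K₀) = algebraMap A K₀ a := fun a => rfl
  let f : A →+* I ⧸ M := (Ideal.Quotient.mk M).comp g
  have hker : RingHom.ker f = (placePrime w hw).asIdeal := by
    ext a
    rw [RingHom.mem_ker]
    change Ideal.Quotient.mk M (g a) = 0 ↔ _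
    rw [Ideal.Quotient.eq_zero_iff_mem]
    exact Iff.rfl
  have hval : ∀ {x : K₀}, w.abv x ≤ 1 → (placePrime w hw).valuation K₀ x ≤ 1 := by
    intro x hx
    by_cases hx0 : x = 0
    · rw [hx0, map_zero]; exact zero_le
    have hv0 : (placePrime w hw).valuation K₀ x ≠ 0 := (Valuation.ne_zero_iff _).mpr hx0
    have h1 := abv_exp w hw (exp_log hv0).symm
    rw [h1] at hx
    rw [← exp_log hv0, ← exp_zero, exp_le_exp]
    by_contra hcon
    exact absurd hx (not_le.mpr (one_lt_zpow₀ (one_lt_res w) (not_le.mp hcon)))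
  have hsurj : Function.Surjective f := by
    intro y
    obtain ⟨⟨x, hx⟩, rfl⟩ := Ideal.Quotient.mk_surjective y
    obtain ⟨a, ha⟩ := exists_valuation_sub_lt_of_integer (placePrime w hw) (hval hx)
      (Units.mk0 (1 : ℤᵐ⁰) one_ne_zero)
    refine ⟨a, ?_⟩
    change Ideal.Quotient.mk M (g a) = Ideal.Quotient.mk M _
    rw [Ideal.Quotient.eq]
    exact abv_lt_of_val w hw ha
  have e : (A ⧸ (placePrime w hw).asIdeal) ≃+* (I ⧸ M) :=
    (Ideal.quotEquivOfEq hker.symm).trans (RingHom.quotientKerEquivOfSurjective hsurj)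
  haveI : Finite (I ⧸ M) := w.normalized.1
  exact ⟨Finite.of_equiv _ e.symm.toEquiv, (Nat.card_congr e.toEquiv).symm⟩

theorem eq_plHos [Finite (A ⧸ (placePrime w hw).asIdeal)] :
    w = plHos K₀ (placePrime w hw) := by
  refine place_ext fun x => ?_
  by_cases hx : x = 0
  · rw [hx, map_zero, map_zero]
  have hv0 : (placePrime w hw).valuation K₀ x ≠ 0 := (Valuation.ne_zero_iff _).mpr hx
  rw [abv_exp w hw (exp_log hv0).symm, (placePrime_finite w hw).2]
  exact (hosAbv_exp (exp_log hv0).symm).symm

end ded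

section nf

variable {k : Type} [Field k] [NumberField k]

open NumberField

/-- **Every place of a number field is the place of a prime.** -/
theorem exists_eq_plHos (w : Place k) : ∃ v : HeightOneSpectrum (𝓞 k), w = plHos k v :=
  ⟨_, eq_plHos w fun a => abv_le_one_of_isIntegral w a.2⟩

theorem plHos_surjective :
    Function.Surjective (fun v : HeightOneSpectrum (𝓞 k) => plHos k v) :=
  fun w => (exists_eq_plHos w).imp fun _ h => h.symm

theorem plHos_injective :
    Function.Injective (fun v : HeightOneSpectrum (𝓞 k) => plHos k v) := by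
  intro v v' h
  have h1 : hosAbv k v = hosAbv k v' := congrArg Place.abv h
  apply HeightOneSpectrum.ext
  ext a
  rw [← valuation_lt_one_iff_mem (K := k), ← valuation_lt_one_iff_mem (K := k), ← hosAbv_lt_one,
    ← hosAbv_lt_one, h1]

end nf

end Vale.Agent.P011.H973.Full
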