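import Vale.Agent.P011.H973.Full.PlaceNF
import Vale.Agent.P011.H973.Full.Semi
import Vale.Agent.P011.One.QDefs
import Vale.Agent.P011.H732.FSt

/-!
# The group `H_A` in the letters of the primes and in the letters of the places

For a number field `k` the statement on `SU_1(D, *)` in the letters of the primes of the ring of
integers gives the statement in the letters of the normalised absolute values.
-/

open IsDedekindDomain HeightOneSpectrum NumberField TensorProduct Topology
open Vale.Agent.P011.H738 (Place SUA)
open Vale.Agent.P011.H308 (plHos toPl toPl_algebraMap)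

namespace Vale.Agent.P011.H973.Full

noncomputable section

section one

variable {k : Type} [Field k] [NumberField k] (v : HeightOneSpectrum (𝓞 k))

/-- The completions at a prime and at its place. -/
def eKv : v.adicCompletion k ≃ₐ[k] H732F.Kv (plHos k v) :=
  AlgEquiv.ofRingEquiv
    (f := ({ toFun := toPl k v
             invFun := ofPl k v
             left_inv := ofPl_toPl v
             right_inv := toPl_ofPl v
             map_mul' := map_mul _
             map_add' := map_add _ } : v.adicCompletion k ≃+* (plHos k v).comp))
    (fun x => toPl_algebraMap x)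

theorem continuous_eKv : Continuous (eKv v) := continuous_toPl v

theorem continuous_eKv_symm : Continuous (eKv v).symm := continuous_ofPl v

variable (D : Type) [DivisionRing D] [Algebra k D]

/-- The algebras `D_v`. -/
def thV : One.Dv k D v ≃+* H732F.Av k D (plHos k v) := congrR (A := D) (eKv v)

theorem thV_smul (r : v.adicCompletion k) (x : One.Dv k D v) :
    thV v D (r • x) = (eKv v).toRingEquiv r • thV v D x := congrR_smul (A := D) (eKv v) r x

theorem thV_in (x : D) : thV v D (One.inDv k D v x) = H732F.inAv k D (plHos k v) x :=
  congrR_in (A := D) (eKv v) x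

theorem thV_symm_in (x : D) :
    (thV v D).symm (H732F.inAv k D (plHos k v) x) = One.inDv k D v x := by
  rw [RingEquiv.symm_apply_eq, thV_in]

theorem continuous_thV : Continuous (thV v D) :=
  continuous_semi (eKv v).toRingEquiv (thV v D) (thV_smul v D) (continuous_eKv v)

theorem continuous_thV_symm : Continuous (thV v D).symm :=
  continuous_semi (eKv v).toRingEquiv.symm (thV v D).symm
    (semi_symm (eKv v).toRingEquiv (thV v D) (thV_smul v D)) (continuous_eKv_symm v)

variable {D} [StarRing D] {n : ℕ}

theorem thV_mem {x : (One.Dv k D v)ˣ} (hx : x ∈ One.Gv D v n) :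
    Units.map (thV v D : One.Dv k D v →* H732F.Av k D (plHos k v)) x ∈
      H732F.Gv D (plHos k v) n := by
  obtain ⟨h1, h2⟩ := hx
  refine ⟨?_, ?_⟩
  · refine unitary_semi (eKv v).toRingEquiv (thV v D) (thV_smul v D)
      (fun σ => ∀ y : D, σ (One.inDv k D v y) = One.inDv k D v (star y)) _ ?_ h1
    intro σ₂ σ₁ h hQ y
    rw [h, thV_in, hQ, thV_symm_in]
  · exact nrd_semi (eKv v).toRingEquiv (thV v D) (thV_smul v D) h2

theorem thV_symm_mem {x : (H732F.Av k D (plHos k v))ˣ} (hx : x ∈ H732F.Gv D (plHos k v) n) :
    Units.map ((thV v D).symm : H732F.Av k D (plHos k v) →* One.Dv k D v) x ∈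
      One.Gv D v n := by
  obtain ⟨h1, h2⟩ := hx
  refine ⟨?_, ?_⟩
  · refine unitary_semi (eKv v).toRingEquiv.symm (thV v D).symm
      (semi_symm (eKv v).toRingEquiv (thV v D) (thV_smul v D))
      (fun σ => ∀ y : D, σ (H732F.inAv k D (plHos k v) y) = H732F.inAv k D (plHos k v) (star y))
      _ ?_ h1
    intro σ₂ σ₁ h hQ y
    rw [h, thV_symm_in, hQ, RingEquiv.symm_symm, thV_in]
  · exact nrd_semi (eKv v).toRingEquiv.symm (thV v D).symm
      (semi_symm (eKv v).toRingEquiv (thV v D) (thV_smul v D)) h2

/-- The groups `G(k_v)`. -/
def theta : One.GTop D v n →* H732F.GTop D (plHos k v) n where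
  toFun x := ⟨Units.map (thV v D : One.Dv k D v →* H732F.Av k D (plHos k v)) x.1,
    thV_mem v x.2⟩
  map_one' := Subtype.ext (map_one (Units.map _))
  map_mul' x y := Subtype.ext (map_mul (Units.map _) x.1 y.1)

/-- The groups `G(k_v)`. -/
def thetaInv : H732F.GTop D (plHos k v) n →* One.GTop D v n where
  toFun x := ⟨Units.map ((thV v D).symm : H732F.Av k D (plHos k v) →* One.Dv k D v) x.1,
    thV_symm_mem v x.2⟩
  map_one' := Subtype.ext (map_one (Units.map _))
  map_mul' x y := Subtype.ext (map_mul (Units.map _) x.1 y.1)

theorem theta_val (x : One.GTop D v n) : (theta v x).val = thV v D x.val := rfl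

theorem thetaInv_val (x : H732F.GTop D (plHos k v) n) :
    (thetaInv v x).val = (thV v D).symm x.val := rfl

theorem theta_thetaInv (x : H732F.GTop D (plHos k v) n) : theta v (thetaInv v x) = x := by
  apply Subtype.ext
  apply Units.ext
  exact (thV v D).apply_symm_apply _

theorem thetaInv_theta (x : One.GTop D v n) : thetaInv v (theta v x) = x := by
  apply Subtype.ext
  apply Units.ext
  exact (thV v D).symm_apply_apply _

theorem continuous_theta : Continuous (theta (D := D) (n := n) v) :=
  ((Continuous.units_map (thV v D : One.Dv k D v →* H732F.Av k D (plHos k v))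
    (continuous_thV v D)).comp continuous_subtype_val).subtype_mk _

theorem continuous_thetaInv : Continuous (thetaInv (D := D) (n := n) v) :=
  ((Continuous.units_map ((thV v D).symm : H732F.Av k D (plHos k v) →* One.Dv k D v)
    (continuous_thV_symm v D)).comp continuous_subtype_val).subtype_mk _

end one

end

end Vale.Agent.P011.H973.Full
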