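import Vale.Agent.P011.H973.Full.Trans

/-!
# The Margulis-Platonov conjecture in the letters of the places, from the letters of the primes
-/

open IsDedekindDomain HeightOneSpectrum NumberField TensorProduct Topology
open Vale.Agent.P011.H738 (Place SUA)
open Vale.Agent.P011.H308 (plHos toPl toPl_algebraMap)

namespace Vale.Agent.P011.H973.Full

noncomputable section

variable {k K D : Type} [Field k] [NumberField k] [Field K] [DivisionRing D] [Algebra k K]
  [Algebra K D] [Algebra k D]

omit [Algebra k D] in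
theorem mem_adiv_of {v : HeightOneSpectrum (𝓞 k)} (h : v ∈ One.Adiv k K D) :
    plHos k v ∈ H732F.Adiv k K D := by
  obtain ⟨φ, hφ⟩ := h
  exact ⟨((eKv v : v.adicCompletion k →ₐ[k] H732F.Kv (plHos k v)).comp φ :
    K →ₐ[k] H732F.Kv (plHos k v)), adiv_transport (A := D) (eKv v) φ hφ⟩

omit [Algebra k D] in
theorem mem_adiv_symm {v : HeightOneSpectrum (𝓞 k)} (h : plHos k v ∈ H732F.Adiv k K D) :
    v ∈ One.Adiv k K D := by
  obtain ⟨φ, hφ⟩ := h
  exact ⟨(((eKv v).symm : H732F.Kv (plHos k v) →ₐ[k] v.adicCompletion k).comp φ :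
    K →ₐ[k] v.adicCompletion k), adiv_transport (A := D) (eKv v).symm φ hφ⟩

variable [StarRing D] {n : ℕ}

/-- The groups `G(k_v)` at a place and at its prime. -/
def phi {w : Place k} {v : HeightOneSpectrum (𝓞 k)} (h : w = plHos k v) :
    One.GTop D v n →* H732F.GTop D w n := by
  subst h
  exact theta v

/-- The groups `G(k_v)` at a place and at its prime. -/
def phiInv {w : Place k} {v : HeightOneSpectrum (𝓞 k)} (h : w = plHos k v) :
    H732F.GTop D w n →* One.GTop D v n := by
  subst h
  exact thetaInv v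

theorem continuous_phi {w : Place k} {v : HeightOneSpectrum (𝓞 k)} (h : w = plHos k v) :
    Continuous (phi (D := D) (n := n) h) := by
  subst h
  exact continuous_theta v

theorem continuous_phiInv {w : Place k} {v : HeightOneSpectrum (𝓞 k)} (h : w = plHos k v) :
    Continuous (phiInv (D := D) (n := n) h) := by
  subst h
  exact continuous_thetaInv v

theorem phi_phiInv {w : Place k} {v : HeightOneSpectrum (𝓞 k)} (h : w = plHos k v)
    (x : H732F.GTop D w n) : phi h (phiInv h x) = x := by
  subst h
  exact theta_thetaInv v x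

theorem phi_in {w : Place k} {v : HeightOneSpectrum (𝓞 k)} (h : w = plHos k v)
    {x : One.GTop D v n} {y : D} (hx : x.val = One.inDv k D v y) :
    (phi h x).val = H732F.inAv k D w y := by
  subst h
  change (theta v x).val = _
  rw [theta_val, hx, thV_in]

theorem phiInv_in {w : Place k} {v : HeightOneSpectrum (𝓞 k)} (h : w = plHos k v)
    {x : H732F.GTop D w n} {y : D} (hx : x.val = H732F.inAv k D w y) :
    (phiInv h x).val = One.inDv k D v y := by
  subst h
  change (thetaInv v x).val = _
  rw [thetaInv_val, hx, thV_symm_in]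

/-- The prime of a place. -/
def prm (w : Place k) : HeightOneSpectrum (𝓞 k) := (exists_eq_plHos w).choose

theorem prm_spec (w : Place k) : w = plHos k (prm w) := (exists_eq_plHos w).choose_spec

/-- The prime of a place of `H_A`. -/
def prmA (w : H732F.Adiv k K D) : One.Adiv k K D :=
  ⟨prm w.1, mem_adiv_symm (by rw [← prm_spec w.1]; exact w.2)⟩

omit [Algebra k D] [StarRing D] in
theorem prmA_injective : Function.Injective (prmA (k := k) (K := K) (D := D)) := by
  intro w w' h
  have h1 : prm w.1 = prm w'.1 := congrArg Subtype.val h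
  apply Subtype.ext
  rw [prm_spec w.1, h1, ← prm_spec w'.1]

/-- The map of `H_A` in the letters of the primes to `H_A` in the letters of the places. -/
def toHA : One.HA D n (One.Adiv k K D) →* H732F.HA D n (H732F.Adiv k K D) :=
  MonoidHom.pi fun w => (phi (prm_spec w.1)).comp (Pi.evalMonoidHom _ (prmA w))

/-- The map of `H_A` in the letters of the places to `H_A` in the letters of the primes. -/
def ofHA : H732F.HA D n (H732F.Adiv k K D) →* One.HA D n (One.Adiv k K D) :=
  MonoidHom.pi fun v => (thetaInv v.1).comp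
    (Pi.evalMonoidHom (fun w : H732F.Adiv k K D => H732F.GTop D w.1 n) ⟨plHos k v.1,
      mem_adiv_of v.2⟩)

theorem continuous_toHA : Continuous (toHA (k := k) (K := K) (D := D) (n := n)) :=
  continuous_pi fun w => (continuous_phi (prm_spec w.1)).comp (continuous_apply (prmA w))

theorem continuous_ofHA : Continuous (ofHA (k := k) (K := K) (D := D) (n := n)) :=
  continuous_pi fun v => (continuous_thetaInv v.1).comp
    (continuous_apply (⟨plHos k v.1, mem_adiv_of v.2⟩ : H732F.Adiv k K D))

theorem toHA_surjective : Function.Surjective (toHA (k := k) (K := K) (D := D) (n := n)) := by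
  intro y
  classical
  let X : ∀ v : One.Adiv k K D, One.GTop D v.1 n := fun v =>
    if h : ∃ w : H732F.Adiv k K D, prmA w = v then
      h.choose_spec ▸ phiInv (prm_spec h.choose.1) (y h.choose) else 1
  have key : ∀ (w w' : H732F.Adiv k K D) (h' : prmA w' = prmA w),
      (h' ▸ phiInv (D := D) (n := n) (prm_spec w'.1) (y w') : One.GTop D (prmA w).1 n) =
        phiInv (prm_spec w.1) (y w) := by
    intro w w' h'
    obtain rfl := prmA_injective h'
    rfl
  have hX : ∀ w : H732F.Adiv k K D, X (prmA w) = phiInv (prm_spec w.1) (y w) := by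
    intro w
    have hw : ∃ w' : H732F.Adiv k K D, prmA w' = prmA w := ⟨w, rfl⟩
    refine Eq.trans (dif_pos hw) ?_
    exact key w _ hw.choose_spec
  refine ⟨X, ?_⟩
  funext w
  change phi (prm_spec w.1) (X (prmA w)) = y w
  rw [hX, phi_phiInv]

variable {Ω : Type} [Field Ω] [Algebra K Ω] {f : D →ₐ[K] Matrix (Fin n) (Fin n) Ω}

theorem transport (h : ∃ δ : One.SUD f →* One.HA D n (One.Adiv k K D), One.IsDiagonal δ ∧
      DenseRange δ ∧ ∀ N : Subgroup (One.SUD f), N.index ≠ 0 → One.IsOpenPreimage δ N) :
    ∃ δ : H732F.GK f →* H732F.HA D n (H732F.Adiv k K D), H732F.IsDiagonal δ ∧ DenseRange δ ∧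
      ∀ N : Subgroup (H732F.GK f), N.index ≠ 0 → H732F.IsOpenPreimage δ N := by
  obtain ⟨δ, hd, hdense, hN⟩ := h
  let δ' : H732F.GK f →* H732F.HA D n (H732F.Adiv k K D) := toHA.comp δ
  have hd' : H732F.IsDiagonal δ' := fun g w => phi_in (prm_spec w.1) (hd g (prmA w))
  refine ⟨δ', hd', toHA_surjective.denseRange.comp hdense continuous_toHA, fun N hi => ?_⟩
  obtain ⟨W, hW, hNW, hn⟩ := hN N hi
  refine ⟨W.comap ofHA, hW.preimage continuous_ofHA, ?_, fun h => (hn h).comap _⟩
  have h1 : (ofHA.comp δ' : H732F.GK f →* One.HA D n (One.Adiv k K D)) = δ := by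
    refine MonoidHom.ext fun g => funext fun v => ?_
    have h2 : (ofHA (δ' g)).at v = One.inDv k D v.1 ((g.1 : Dˣ) : D) :=
      phiInv_in (w := plHos k v.1) rfl (hd' g ⟨plHos k v.1, mem_adiv_of v.2⟩)
    have h3 : (δ g).at v = One.inDv k D v.1 ((g.1 : Dˣ) : D) := hd g v
    have h4 : (ofHA (δ' g)).at v = (δ g).at v := by rw [h2, h3]
    exact Subtype.ext (Units.ext h4)
  change N = (W.comap ofHA).comap δ'
  rw [Subgroup.comap_comap, h1]
  exact hNW

end

end Vale.Agent.P011.H973.Full
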