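import Vale.Agent.P011.H973.Full.PlaceNF
import Vale.Agent.P011.H973.Full.Eqv
import Vale.Agent.P011.H271.PlaceK
import Vale.Agent.P011.H732.FSt

/-!
# The places of a global field and the absolute values normalized by powers of two
-/

open IsDedekindDomain HeightOneSpectrum WithZero Vale.Agent.P011.H738 Vale.Agent.P011.H308
open scoped NNReal

namespace Vale.Agent.P011.H973.Full

noncomputable section

section eqv

variable {k : Type} [Field k] {a b : AbsoluteValue k ℝ}

theorem isEquiv_of_le_one_iff (h : ∀ x, a x ≤ 1 ↔ b x ≤ 1) : a.IsEquiv b := by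
  intro x y
  by_cases hy : y = 0
  · subst hy
    rw [map_zero, map_zero]
    constructor
    · intro h1
      have hx : x = 0 := (AbsoluteValue.eq_zero a).mp (le_antisymm h1 (a.nonneg x))
      rw [hx, map_zero]
    · intro h1
      have hx : x = 0 := (AbsoluteValue.eq_zero b).mp (le_antisymm h1 (b.nonneg x))
      rw [hx, map_zero]
  · have h1 := h (x / y)
    rwa [map_div₀, map_div₀, div_le_one (AbsoluteValue.pos a hy),
      div_le_one (AbsoluteValue.pos b hy)] at h1

end eqv

section two

variable {k : Type} [Field k]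

/-- An absolute value is normalized by powers of two. -/
def Disc (a : AbsoluteValue k ℝ) : Prop := ∀ y : ℝ, (∃ x ≠ 0, a x = y) ↔ ∃ m : ℤ, y = 2 ^ m

theorem Disc.isNontrivial {a : AbsoluteValue k ℝ} (h : Disc a) : a.IsNontrivial := by
  obtain ⟨x, hx0, hx⟩ := (h 2).mpr ⟨1, by rw [zpow_one]⟩
  exact ⟨x, hx0, by rw [hx]; norm_num⟩

/-- Equivalent absolute values normalized by powers of two are equal. -/
theorem eq_of_isEquiv {a b : AbsoluteValue k ℝ} (ha : Disc a) (hb : Disc b) (h : a.IsEquiv b) :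
    a = b := by
  obtain ⟨π, hπ0, hπ⟩ := (ha 2).mpr ⟨1, by rw [zpow_one]⟩
  obtain ⟨ρ, hρ0, hρ⟩ := (hb 2).mpr ⟨1, by rw [zpow_one]⟩
  obtain ⟨c, hc, hab⟩ := AbsoluteValue.isEquiv_iff_exists_rpow_eq.mp h
  have hx : ∀ x, b x = a x ^ c := fun x => (congrFun hab x).symm
  obtain ⟨m, hm⟩ := (hb (b π)).mp ⟨π, hπ0, rfl⟩
  obtain ⟨m', hm'⟩ := (ha (a ρ)).mp ⟨ρ, hρ0, rfl⟩
  have h2 : (0 : ℝ) < 2 := by norm_num
  have h3 : c = m := by
    rw [hx, hπ, ← Real.rpow_intCast] at hm
    exact (Real.strictMono_rpow_of_base_gt_one (by norm_num)).injective hm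
  have h4 : (1 : ℝ) = m' * c := by
    have h5 : (2 : ℝ) ^ (1 : ℝ) = 2 ^ ((m' : ℝ) * c) := by
      rw [Real.rpow_one, Real.rpow_mul h2.le, Real.rpow_intCast, ← hm', ← hx, hρ]
    exact (Real.strictMono_rpow_of_base_gt_one (by norm_num)).injective h5
  have h6 : m' * m = 1 := by
    rw [h3] at h4
    exact_mod_cast h4.symm
  have h7 : 0 < m := by
    rw [h3] at hc
    exact_mod_cast hc
  have h8 : m = 1 := by
    rcases Int.isUnit_iff.mp (IsUnit.of_mul_eq_one m' (by rw [mul_comm]; exact h6)) with h | h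
    · exact h
    · omega
  refine DFunLike.ext _ _ fun x => ?_
  rw [hx, h3, h8, Int.cast_one, Real.rpow_one]

variable (w : Place k)

/-- The exponent of the normalization. -/
def cc : ℝ :=
  Real.log 2 / Real.log (Nat.card (integers w.abv w.nonarch ⧸ maxIdeal w.abv w.nonarch) : ℝ)

theorem cc_pos : 0 < cc w := div_pos (Real.log_pos (by norm_num)) (Real.log_pos (one_lt_res w))

theorem res_rpow :
    (Nat.card (integers w.abv w.nonarch ⧸ maxIdeal w.abv w.nonarch) : ℝ) ^ cc w = 2 := by
  have h := one_lt_res w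
  rw [Real.rpow_def_of_pos (by linarith), cc, mul_div_cancel₀ _ (Real.log_pos h).ne',
    Real.exp_log (by norm_num)]

/-- The absolute value of the place normalized by powers of two. -/
def two : AbsoluteValue k ℝ where
  toFun x := w.abv x ^ cc w
  map_mul' x y := by
    rw [map_mul, Real.mul_rpow (w.abv.nonneg _) (w.abv.nonneg _)]
  nonneg' x := Real.rpow_nonneg (w.abv.nonneg _) _
  eq_zero' x := by
    rw [Real.rpow_eq_zero (w.abv.nonneg _) (cc_pos w).ne']
    exact w.abv.eq_zero
  add_le' x y := by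
    refine (Real.rpow_le_rpow (w.abv.nonneg _) (w.nonarch x y) (cc_pos w).le).trans ?_
    rcases le_total (w.abv x) (w.abv y) with h | h
    · rw [max_eq_right h]
      exact le_add_of_nonneg_left (Real.rpow_nonneg (w.abv.nonneg _) _)
    · rw [max_eq_left h]
      exact le_add_of_nonneg_right (Real.rpow_nonneg (w.abv.nonneg _) _)

theorem two_apply (x : k) : two w x = w.abv x ^ cc w := rfl

theorem isEquiv_two : w.abv.IsEquiv (two w) :=
  AbsoluteValue.isEquiv_iff_exists_rpow_eq.mpr ⟨cc w, cc_pos w, rfl⟩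

theorem two_nonarch : IsNonarchimedean (two w) := by
  intro x y
  refine (Real.rpow_le_rpow (w.abv.nonneg _) (w.nonarch x y) (cc_pos w).le).trans ?_
  rcases le_total (w.abv x) (w.abv y) with h | h
  · rw [max_eq_right h]
    exact le_max_right _ _
  · rw [max_eq_left h]
    exact le_max_left _ _

theorem two_disc : Disc (two w) := by
  have hq := one_lt_res w
  have hq0 := zero_lt_one.trans hq
  have key : ∀ m : ℤ, ((Nat.card (integers w.abv w.nonarch ⧸ maxIdeal w.abv w.nonarch) : ℝ) ^ m) ^
      cc w = 2 ^ m := by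
    intro m
    rw [← Real.rpow_intCast, ← Real.rpow_mul hq0.le, mul_comm, Real.rpow_mul hq0.le, res_rpow,
      Real.rpow_intCast]
  intro y
  constructor
  · rintro ⟨x, hx0, rfl⟩
    obtain ⟨m, hm⟩ := w.normalized.2.2 x hx0
    exact ⟨m, by rw [two_apply, hm, key]⟩
  · rintro ⟨m, rfl⟩
    obtain ⟨x, hx⟩ := w.normalized.2.1
    have hx0 : x ≠ 0 := by
      rintro rfl
      rw [map_zero] at hx
      linarith
    exact ⟨x ^ m, zpow_ne_zero _ hx0, by rw [two_apply, map_zpow₀, hx, key]⟩

end two

section ded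

variable {A : Type} [CommRing A] [IsDedekindDomain A] {K₀ : Type} [Field K₀] [Algebra A K₀]
  [IsFractionRing A K₀] {a : AbsoluteValue K₀ ℝ} (hn : IsNonarchimedean a)
  (hw : ∀ r : A, a (algebraMap A K₀ r) ≤ 1)

/-- The ideal of `A` of the absolute value. -/
def abvIdeal : Ideal A where
  carrier := {r | a (algebraMap A K₀ r) < 1}
  add_mem' := by
    intro r s hr hs
    change a (algebraMap A K₀ (r + s)) < 1
    rw [map_add]
    exact (hn _ _).trans_lt (max_lt hr hs)
  zero_mem' := by
    change a (algebraMap A K₀ 0) < 1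
    rw [map_zero, map_zero]
    exact zero_lt_one
  smul_mem' := by
    intro c r hr
    change a (algebraMap A K₀ (c * r)) < 1
    rw [map_mul, map_mul]
    exact mul_lt_one_of_nonneg_of_lt_one_right (hw c) (a.nonneg _) hr

include hn hw in
omit [IsDedekindDomain A] [IsFractionRing A K₀] in
theorem abvIdeal_prime : (abvIdeal hn hw).IsPrime := by
  refine ⟨fun h => ?_, fun {r s} hrs => ?_⟩
  · have h1 : (1 : A) ∈ abvIdeal hn hw := by rw [h]; exact Submodule.mem_top
    change a (algebraMap A K₀ 1) < 1 at h1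
    rw [map_one, map_one] at h1
    exact lt_irrefl _ h1
  · change a (algebraMap A K₀ r) < 1 ∨ a (algebraMap A K₀ s) < 1
    change a (algebraMap A K₀ (r * s)) < 1 at hrs
    rw [map_mul, map_mul] at hrs
    by_contra hcon
    rw [not_or, not_lt, not_lt] at hcon
    have h1 := le_antisymm (hw r) hcon.1
    have h2 := le_antisymm (hw s) hcon.2
    rw [h1, h2, one_mul] at hrs
    exact lt_irrefl _ hrs

theorem abvIdeal_ne_bot (hnt : a.IsNontrivial) : abvIdeal hn hw ≠ ⊥ := by
  intro h
  obtain ⟨x, hx⟩ := hnt.exists_abv_gt_one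
  have h1 : ∀ r : A, r ≠ 0 → a (algebraMap A K₀ r) = 1 := by
    intro r hr
    refine le_antisymm (hw r) (not_lt.mp fun hlt => hr ?_)
    have h2 : r ∈ abvIdeal hn hw := hlt
    rw [h] at h2
    exact h2
  obtain ⟨r, s, hs, hrs⟩ := IsFractionRing.div_surjective (A := A) x
  have hs0 : s ≠ 0 := nonZeroDivisors.ne_zero hs
  have h2 : a x ≤ 1 := by
    rw [← hrs, map_div₀, h1 s hs0, div_one]
    exact hw r
  exact absurd h2 (not_le.mpr hx)

include hn hw in
/-- A nonarchimedean absolute value which is at most one on `A` is equivalent to the absolute value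
of a prime. -/
theorem exists_isEquiv_hosAbv (hnt : a.IsNontrivial)
    (hfin : ∀ v : HeightOneSpectrum A, Finite (A ⧸ v.asIdeal)) :
    ∃ v : HeightOneSpectrum A, ∃ _ : Finite (A ⧸ v.asIdeal), (plHos K₀ v).abv.IsEquiv a := by
  let P : HeightOneSpectrum A := ⟨abvIdeal hn hw, abvIdeal_prime hn hw, abvIdeal_ne_bot hn hw hnt⟩
  have hf : Finite (A ⧸ P.asIdeal) := hfin P
  refine ⟨P, hf, ?_⟩
  have hnt' : (plHos K₀ P).abv.IsNontrivial := by
    obtain ⟨x, hx⟩ := (plHos K₀ P).normalized.2.1
    have h1 := one_lt_res (plHos K₀ P)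
    refine ⟨x, ?_, ?_⟩
    · rintro rfl
      rw [map_zero] at hx
      linarith
    · rw [hx]
      exact h1.ne'
  refine AbsoluteValue.isEquiv_of_lt_one_imp hnt' fun x hx => ?_
  have hx' : P.valuation K₀ x < 1 := hosAbv_lt_one.mp hx
  obtain ⟨n, d, hnd⟩ := exists_primeCompl_mul_eq_of_integer P x hx'.le
  have h1 : a (algebraMap A K₀ d) = 1 :=
    le_antisymm (hw d) (not_lt.mp fun h => d.2 h)
  have h2 := congrArg a hnd
  rw [map_mul, h1, mul_one] at h2
  rw [h2]
  have h3 : P.valuation K₀ (algebraMap A K₀ d) ≤ 1 := valuation_le_one _ _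
  have h4 : P.valuation K₀ (algebraMap A K₀ n) < 1 := by
    rw [← hnd, map_mul]
    exact (mul_le_mul_right h3 _).trans_lt (by rwa [mul_one])
  exact (valuation_lt_one_iff_mem P n).mp h4

end ded

section glob

variable {k : Type} [Field k] {a : AbsoluteValue k ℝ}

/-- The valuation ring of a nonarchimedean absolute value. -/
def abvRing (hn : IsNonarchimedean a) : ValuationSubring k :=
  { integers a hn with
    mem_or_inv_mem' := by
      intro x
      by_cases hx : a x ≤ 1
      · exact Or.inl hx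
      · refine Or.inr ?_
        change a x⁻¹ ≤ 1
        rw [map_inv₀]
        exact inv_le_one_of_one_le₀ (not_le.mp hx).le }

theorem mem_abvRing {hn : IsNonarchimedean a} {x : k} : x ∈ abvRing hn ↔ a x ≤ 1 := Iff.rfl

theorem exists_place_nf [NumberField k] (hn : IsNonarchimedean a) (hnt : a.IsNontrivial) :
    ∃ w : Place k, w.abv.IsEquiv a := by
  have hw : ∀ r : NumberField.RingOfIntegers k, a (algebraMap _ k r) ≤ 1 := by
    intro r
    have h1 : IsIntegral (abvRing hn) (algebraMap (NumberField.RingOfIntegers k) k r) :=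
      r.2.tower_top
    obtain ⟨y, hy⟩ := IsIntegrallyClosed.isIntegral_iff.1 h1
    rw [← hy]
    exact y.2
  obtain ⟨v, hv, h⟩ := exists_isEquiv_hosAbv hn hw hnt (fun v => inferInstance)
  exact ⟨plHos k v, h⟩

theorem exists_place_ff (hk : IsGlobalFunctionField k) (hn : IsNonarchimedean a)
    (hnt : a.IsNontrivial) : ∃ w : Place k, w.abv.IsEquiv a := by
  haveI := H271.gff_of_isGlobal hk
  have hne : abvRing hn ≠ ⊤ := by
    intro h
    obtain ⟨x, hx⟩ := hnt.exists_abv_gt_one
    have h1 : x ∈ abvRing hn := by rw [h]; trivial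
    exact absurd (mem_abvRing.mp h1) (not_le.mpr hx)
  obtain ⟨w, hw⟩ := H271.toPl_surjective (k := k) ⟨abvRing hn, hne⟩
  refine ⟨w, isEquiv_of_le_one_iff fun x => ?_⟩
  rw [← H271.plV_le_one w x, ← mem_abvRing (hn := hn)]
  have h1 : (H271.toPl w).1 = abvRing hn := congrArg Subtype.val hw
  rw [← h1]
  exact Iff.rfl

/-- Over a global field every absolute value normalized by powers of two comes from a place. -/
theorem exists_place (hk : Q1.IsGlobal k) (hn : IsNonarchimedean a) (hd : Disc a) :
    ∃ w : Place k, a = two w := by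
  have h : ∃ w : Place k, w.abv.IsEquiv a := by
    rcases hk with hk | hk
    · exact exists_place_nf hn hd.isNontrivial
    · exact exists_place_ff hk hn hd.isNontrivial
  obtain ⟨w, hw⟩ := h
  exact ⟨w, eq_of_isEquiv hd (two_disc w) (hw.symm.trans (isEquiv_two w))⟩

end glob

section compl

variable {k : Type} [Field k] (w : Place k)

/-- The completions at a place and at its absolute value normalized by powers of two. -/
def eTwo : H732F.Kv w ≃ₐ[k] Q1.Compl (two w) := eAbv (isEquiv_two w)

end compl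

end

end Vale.Agent.P011.H973.Full
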