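import Vale.Agent.P011.H973.Full.TypeANF
import Vale.Agent.P011.H984.Full.NFdiv

/-!
# The Margulis-Platonov conjecture for outer forms of type `A` over a number field, in the letters
of the places
-/

open Module NumberField TensorProduct Topology
open Vale.Agent.P011.H738 (Place SUA Anis)

namespace Vale.Agent.P011.H973.Full

/-- **Type `A`, number fields, every algebra**: from `MP n` for all `n ≥ 3`. -/
theorem typeA_nf {k K A F : Type} [Field k] [NumberField k] [Field K] [Algebra k K] [StarRing K]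
    [Ring A] [StarRing A] [Algebra k A] [Algebra K A] [IsScalarTower k K A] [StarModule K A] {n : ℕ}
    (hA : Anis k K A n) (hn : 3 ≤ n)
    (hns : ¬ ∃ m : ℕ, Nonempty (A ≃ₐ[K] Matrix (Fin m) (Fin m) K)) [Field F] [Algebra K F]
    (f : A →ₐ[K] Matrix (Fin n) (Fin n) F) (hMP : ∀ n : ℕ, 3 ≤ n → Pow.MP n) :
    ∃ δ : H732F.GK f →* H732F.HA A n (H732F.Adiv k K A), H732F.IsDiagonal δ ∧ DenseRange δ ∧
      ∀ N : Subgroup (H732F.GK f), N.index ≠ 0 → H732F.IsOpenPreimage δ N := by
  refine typeA_nf_of hA hn f (hMP n hn) fun hdiv N hN => ?_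
  obtain ⟨_, _, _, h⟩ := H984.clause_div hA (by omega) hdiv hns f
  exact (h N hN).2

end Vale.Agent.P011.H973.Full
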